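import Mathlib

/-! A spanning forest of bounded degree with boundedly many components in a dense graph, and its
crossings. -/

namespace Vale.Agent.P061.Dense

open Finset Classical

variable {V : Type} [Fintype V]

/-- The degree of a vertex. -/
noncomputable def deg (G : SimpleGraph V) (v : V) : ℕ := (univ.filter fun u => G.Adj v u).card

/-- The edges of a graph. -/
noncomputable def eset (G : SimpleGraph V) : Finset (Sym2 V) := univ.filter fun e => e ∈ G.edgeSet

theorem card_eset_tree {T : SimpleGraph V} (hT : T.IsTree) :
    (eset T).card + 1 = Fintype.card V := by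
  rw [← hT.card_edgeFinset]
  congr 2
  ext e; simp [eset]

theorem sum_deg (G : SimpleGraph V) : ∑ v, deg G v = 2 * (eset G).card := by
  have h := G.sum_degrees_eq_twice_card_edges
  have e1 : ∀ v, G.degree v = deg G v := fun v => by
    rw [← SimpleGraph.card_neighborFinset_eq_degree, deg]
    congr 1; ext u; simp
  have e2 : G.edgeFinset = eset G := by ext e; simp [eset]
  simp only [e1, e2] at h
  exact h

/-- An acyclic graph misses a tree by at most its number of components. -/
theorem card_le_eset_add_comp [Nonempty V] (F : SimpleGraph V) :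
    Fintype.card V ≤ (eset F).card + Fintype.card F.ConnectedComponent + 1 := by
  obtain ⟨r⟩ := ‹Nonempty V›
  let star : Finset (Sym2 V) := univ.image fun c : F.ConnectedComponent => s(r, c.out)
  let H : SimpleGraph V := F ⊔ SimpleGraph.fromEdgeSet (star : Set (Sym2 V))
  have hH : H.Connected := by
    refine @SimpleGraph.Connected.mk _ _ ?_ ⟨r⟩
    have key : ∀ x, H.Reachable x r := fun x => by
      obtain ⟨c, hc⟩ : ∃ c, F.connectedComponentMk x = c := ⟨_, rfl⟩
      have h1 : F.Reachable x c.out := by
        refine SimpleGraph.ConnectedComponent.exact ?_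
        rw [hc]; exact (Quot.out_eq c).symm
      refine (h1.mono le_sup_left).trans ?_
      by_cases h2 : c.out = r
      · rw [h2]
      · refine SimpleGraph.Adj.reachable (Or.inr ?_)
        rw [SimpleGraph.fromEdgeSet_adj]
        refine ⟨?_, h2⟩
        rw [Sym2.eq_swap]
        exact mem_image_of_mem _ (mem_univ c)
    exact fun x y => (key x).trans (key y).symm
  have h := hH.card_vert_le_card_edgeSet_add_one
  rw [Nat.card_eq_fintype_card] at h
  refine h.trans (Nat.add_le_add_right ?_ 1)
  calc Nat.card H.edgeSet ≤ Nat.card (↑(eset F ∪ star) : Set (Sym2 V)) :=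
        Nat.card_mono (Set.toFinite _) fun e he => by
          simp [H, SimpleGraph.edgeSet_sup] at he
          simp [eset]
          exact he.imp id fun h => h.1
    _ = (eset F ∪ star).card := by simp
    _ ≤ (eset F).card + star.card := card_union_le _ _
    _ ≤ _ := Nat.add_le_add_left (card_image_le.trans (by simp)) _

/-- In a graph of minimum degree `d / 2m` some forest of degree at most `9 m ^ 2` has few
components. -/
theorem exists_forest [Nonempty V] (H : SimpleGraph V) {m d : ℕ} (hd0 : 1 ≤ d)
    (hn : Fintype.card V ≤ m * d) (hdeg : ∀ v, d ≤ 2 * m * deg H v) :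
    ∃ F : SimpleGraph V, F ≤ H ∧ F.IsAcyclic ∧ (∀ v, deg F v ≤ 9 * m ^ 2) ∧
      Fintype.card F.ConnectedComponent ≤ 4 * m ^ 2 := by
  have hm : 0 < m := by
    rcases Nat.eq_zero_or_pos m with rfl | h0
    · have := Fintype.card_pos (α := V); simp at hn
    · exact h0
  set D := 9 * m ^ 2 with hD
  have h9 : 9 ≤ D := by
    have : 1 ≤ m ^ 2 := Nat.one_le_pow _ _ hm
    omega
  obtain ⟨F, ⟨hFH, hFa, hFd⟩, hmax⟩ := Set.Finite.exists_maximal
    (Set.toFinite {F : SimpleGraph V | F ≤ H ∧ F.IsAcyclic ∧ ∀ v, deg F v ≤ D})
    ⟨⊥, bot_le, SimpleGraph.isAcyclic_bot, fun v => by simp [deg]⟩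
  refine ⟨F, hFH, hFa, hFd, ?_⟩
  let S := univ.filter fun v => deg F v = D
  have hsat : D * S.card ≤ 2 * (m * d) := by
    have h1 : D * S.card ≤ ∑ v, deg F v := by
      refine le_trans ?_ (sum_le_sum_of_subset (subset_univ S))
      have := card_nsmul_le_sum S (deg F) D fun v hv => (mem_filter.1 hv).2.ge
      simpa [mul_comm] using this
    rw [sum_deg] at h1
    obtain ⟨T, hFT, -, hT⟩ := (SimpleGraph.connected_top : (⊤ : SimpleGraph V).Connected)
      |>.exists_isTree_le_of_le_of_isAcyclic le_top hFa
    have h2 : (eset F).card ≤ (eset T).card := card_le_card fun e he => by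
      simp only [eset, mem_filter, mem_univ, true_and] at he ⊢
      exact SimpleGraph.edgeSet_mono hFT he
    have := card_eset_tree hT
    omega
  have hext : ∀ u w, H.Adj u w → deg F u < D → deg F w < D → F.Reachable u w := by
    intro u w huw hu hw
    by_contra hnr
    have hmem : (F ⊔ SimpleGraph.edge u w) ≤ H ∧ (F ⊔ SimpleGraph.edge u w).IsAcyclic ∧
        ∀ v, deg (F ⊔ SimpleGraph.edge u w) v ≤ D := by
      refine ⟨sup_le hFH ?_, SimpleGraph.IsAcyclic.sup_edge_of_not_reachable hnr hFa, fun v => ?_⟩
      · exact (SimpleGraph.edge_le_iff H).2 (Or.inr huw)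
      · by_cases hv : v = u ∨ v = w
        · have hlt : deg F v < D := by rcases hv with rfl | rfl <;> assumption
          have hsub : univ.filter (fun x => (F ⊔ SimpleGraph.edge u w).Adj v x) ⊆
              insert (if v = u then w else u) (univ.filter fun x => F.Adj v x) := by
            intro x hx
            simp [SimpleGraph.edge_adj] at hx ⊢
            rcases hx with hx | ⟨⟨rfl, rfl⟩ | ⟨rfl, rfl⟩, hne⟩
            · exact Or.inr hx
            · simp
            · simp [hne]
          have := (card_le_card hsub).trans (card_insert_le _ _)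
          simp only [deg] at hlt ⊢
          refine le_trans (le_of_eq ?_) (this.trans (Nat.succ_le_of_lt hlt))
          congr 1
          ext
          simp
        · push Not at hv
          refine le_of_eq_of_le ?_ (hFd v)
          simp only [deg]
          congr 1
          ext x
          simp [SimpleGraph.edge_adj, hv.1, hv.2]
    have := hmax hmem le_sup_left
    exact hnr ((this (Or.inr (by simp [SimpleGraph.edge_adj, huw.ne]))).reachable)
  have hbig : ∀ c : F.ConnectedComponent,
      d ≤ 4 * m * (univ.filter fun v => F.connectedComponentMk v = c).card := by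
    intro c
    obtain ⟨v, hv, hvd⟩ : ∃ v, F.connectedComponentMk v = c ∧ deg F v < D := by
      by_cases h0 : ∃ v, F.connectedComponentMk v = c ∧ deg F v = 0
      · obtain ⟨v, h1, h2⟩ := h0
        exact ⟨v, h1, by omega⟩
      push Not at h0
      obtain ⟨a, ha⟩ := c.nonempty_supp
      have ha' : F.connectedComponentMk a = c := ha
      obtain ⟨b, hb⟩ : ∃ b, F.Adj a b := by
        have := h0 a ha'
        simp only [deg] at this
        obtain ⟨b, hb⟩ := card_pos.1 (Nat.pos_of_ne_zero this)
        exact ⟨b, (mem_filter.1 hb).2⟩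
      have hb' : b ∈ c.supp := by
        show F.connectedComponentMk b = c
        rw [← ha']
        exact SimpleGraph.ConnectedComponent.sound hb.symm.reachable
      have : Nontrivial c := ⟨⟨a, ha⟩, ⟨b, hb'⟩, fun e => hb.ne (congrArg Subtype.val e)⟩
      obtain ⟨⟨v, hv⟩, hv1⟩ := (hFa.isTree_connectedComponent c).exists_vert_degree_one_of_nontrivial
      refine ⟨v, hv, lt_of_le_of_lt ?_ (show 1 < D by omega)⟩
      rw [← hv1, deg, ← SimpleGraph.card_neighborFinset_eq_degree]
      have hmem : ∀ x, F.Adj v x → x ∈ c.supp := fun x hx => by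
        show F.connectedComponentMk x = c
        rw [← show F.connectedComponentMk v = c from hv]
        exact SimpleGraph.ConnectedComponent.sound hx.symm.reachable
      refine card_le_card_of_injOn (fun x => if h : F.Adj v x then ⟨x, hmem x h⟩ else ⟨v, hv⟩) ?_ ?_
      · intro x hx
        have hx' : F.Adj v x := (mem_filter.1 hx).2
        simp only [dif_pos hx', mem_coe, SimpleGraph.mem_neighborFinset]
        exact hx'
      · intro x hx y hy e
        have hx' : F.Adj v x := (mem_filter.1 hx).2
        have hy' : F.Adj v y := (mem_filter.1 hy).2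
        simp only [dif_pos hx', dif_pos hy'] at e
        exact congrArg Subtype.val e
    have hsub : (univ.filter fun u => H.Adj v u) \ S ⊆
        univ.filter fun u => F.connectedComponentMk u = c := by
      intro u hu
      obtain ⟨h1, h2⟩ := mem_sdiff.1 hu
      have h3 : deg F u < D := lt_of_le_of_ne (hFd u) fun e => h2 (mem_filter.2 ⟨mem_univ _, e⟩)
      refine mem_filter.2 ⟨mem_univ _, ?_⟩
      rw [← hv]
      exact (SimpleGraph.ConnectedComponent.sound (hext v u (mem_filter.1 h1).2 hvd h3)).symm
    have h1 := (le_card_sdiff S (univ.filter fun u => H.Adj v u)).trans (card_le_card hsub)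
    have h2 := Nat.mul_le_mul_left (4 * m) h1
    rw [Nat.mul_sub] at h2
    have h3 : 4 * m * S.card ≤ d := by
      have : 9 * m * (4 * m * S.card) ≤ 9 * m * d := by
        calc 9 * m * (4 * m * S.card) = 4 * (D * S.card) := by rw [hD]; ring
          _ ≤ 4 * (2 * (m * d)) := Nat.mul_le_mul_left _ hsat
          _ ≤ 9 * m * d := by nlinarith
      exact Nat.le_of_mul_le_mul_left this (by omega)
    have h4 : 2 * d ≤ 4 * m * deg H v := by have := hdeg v; nlinarith
    simp only [deg] at h4
    omega
  have hsum := card_eq_sum_card_fiberwise (f := F.connectedComponentMk) (s := (univ : Finset V))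
    (t := univ) fun x _ => mem_univ (F.connectedComponentMk x)
  have h1 : d * Fintype.card F.ConnectedComponent ≤ 4 * m * Fintype.card V := by
    rw [← card_univ (α := V), hsum, mul_sum]
    have := card_nsmul_le_sum (univ : Finset F.ConnectedComponent)
      (fun c => 4 * m * (univ.filter fun v => F.connectedComponentMk v = c).card) d fun c _ => hbig c
    simpa [mul_comm] using this
  have h2 : d * Fintype.card F.ConnectedComponent ≤ d * (4 * m ^ 2) :=
    h1.trans ((Nat.mul_le_mul_left _ hn).trans_eq (by ring))
  exact Nat.le_of_mul_le_mul_left h2 hd0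

/-- Crossing edges all have an end in a given set. -/
theorem crossing_le (F : SimpleGraph V) (D : ℕ) (hF : ∀ v, deg F v ≤ D) (Y : Finset V)
    (P : Sym2 V → Prop) (h : ∀ a b, F.Adj a b → P s(a, b) → a ∈ Y ∨ b ∈ Y) :
    ((eset F).filter P).card ≤ D * Y.card := by
  have hsub : (eset F).filter P ⊆
      Y.biUnion fun a => (univ.filter fun b => F.Adj a b).image fun b => s(a, b) := by
    intro e he
    induction e using Sym2.ind with
    | _ a b =>
      simp only [eset, mem_filter, mem_univ, true_and, SimpleGraph.mem_edgeSet] at he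
      simp only [mem_biUnion, mem_image, mem_filter, mem_univ, true_and]
      rcases h a b he.1 he.2 with ha | hb
      · exact ⟨a, ha, b, he.1, rfl⟩
      · exact ⟨b, hb, a, he.1.symm, Sym2.eq_swap⟩
  refine (card_le_card hsub).trans (card_biUnion_le.trans ?_)
  refine (sum_le_card_nsmul _ _ D fun a _ => card_image_le.trans (hF a)).trans ?_
  simp [mul_comm]

end Vale.Agent.P061.Dense
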