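import Mathlib

/-! A partition of a dense graph into boundedly many parts without sparse cuts inside a part. -/

namespace Vale.Agent.P061.Dense

open Finset Classical

variable {V : Type} [Fintype V] (A : SimpleGraph V)

/-- Ordered adjacent pairs with ends in different classes. -/
noncomputable def crossPairs {t : ℕ} (f : V → Fin t) : Finset (V × V) :=
  univ.filter fun p => A.Adj p.1 p.2 ∧ f p.1 ≠ f p.2

/-- Ordered adjacent pairs from `X` to `Y`. -/
noncomputable def pairs (X Y : Finset V) : Finset (V × V) :=
  (X ×ˢ Y).filter fun p => A.Adj p.1 p.2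

/-- The class of a colour. -/
noncomputable def cls {t : ℕ} (f : V → Fin t) (c : Fin t) : Finset V := univ.filter fun v => f v = c

/-- The neighbours of a vertex in a colour. -/
noncomputable def nbrIn {t : ℕ} (f : V → Fin t) (v : V) (c : Fin t) : Finset V :=
  univ.filter fun u => A.Adj v u ∧ f u = c

variable {A}

theorem card_pairs_comm (X Y : Finset V) : (pairs A X Y).card = (pairs A Y X).card := by
  refine Finset.card_equiv (Equiv.prodComm V V) fun p => ?_
  simp [pairs, and_comm, A.adj_comm]

theorem card_pairs_eq (X Y : Finset V) :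
    (pairs A X Y).card = ∑ x ∈ X, (Y.filter fun y => A.Adj x y).card := by
  simp only [pairs, card_filter]
  rw [sum_product]

theorem nbr_sum {t : ℕ} (f : V → Fin t) (v : V) :
    (univ.filter fun u => A.Adj v u).card = ∑ c, (nbrIn A f v c).card := by
  rw [card_eq_sum_card_fiberwise (f := f) (t := univ) fun x _ => mem_univ (f x)]
  refine sum_congr rfl fun c _ => congrArg card ?_
  ext u; simp [nbrIn]

/-- Moving a vertex to another class. -/
theorem move_card {t : ℕ} (f : V → Fin t) (v : V) (c : Fin t) (h : c ≠ f v) :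
    (crossPairs A (Function.update f v c)).card + 2 * (nbrIn A f v c).card =
      (crossPairs A f).card + 2 * (nbrIn A f v (f v)).card := by
  have key : ∀ g : V → Fin t, (∀ u, u ≠ v → g u = f u) → (crossPairs A g).card =
      ((crossPairs A f).filter fun p => p.1 ≠ v ∧ p.2 ≠ v).card +
        2 * (univ.filter fun u => A.Adj v u ∧ f u ≠ g v).card := by
    intro g hg
    have h1 := card_filter_add_card_filter_not (s := crossPairs A g)
      (fun p => p.1 ≠ v ∧ p.2 ≠ v)
    have h2 : (crossPairs A g).filter (fun p => p.1 ≠ v ∧ p.2 ≠ v) =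
        (crossPairs A f).filter fun p => p.1 ≠ v ∧ p.2 ≠ v := by
      ext ⟨a, b⟩
      simp only [crossPairs, mem_filter, mem_univ, true_and]
      constructor <;> rintro ⟨hh, ha, hb⟩ <;>
        simp [hg a ha, hg b hb, ha, hb] at hh ⊢ <;> exact hh
    have h3 : (crossPairs A g).filter (fun p => ¬ (p.1 ≠ v ∧ p.2 ≠ v)) =
        (univ.filter fun u => A.Adj v u ∧ f u ≠ g v).image (fun u => (v, u)) ∪
        (univ.filter fun u => A.Adj v u ∧ f u ≠ g v).image (fun u => (u, v)) := by
      ext ⟨a, b⟩
      simp only [crossPairs, mem_filter, mem_univ, true_and, mem_union, mem_image, Prod.mk.injEq]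
      constructor
      · rintro ⟨⟨hab, hne⟩, hv'⟩
        by_cases ha : a = v
        · subst ha
          refine Or.inl ⟨b, ⟨hab, ?_⟩, rfl, rfl⟩
          rw [← hg b hab.ne']
          exact hne.symm
        · have hb : b = v := by
            by_contra hb
            exact hv' ⟨ha, hb⟩
          subst hb
          exact Or.inr ⟨a, ⟨hab.symm, by rw [← hg a ha]; exact hne⟩, rfl, rfl⟩
      · rintro (⟨u, ⟨hu, hne⟩, rfl, rfl⟩ | ⟨u, ⟨hu, hne⟩, rfl, rfl⟩)
        · exact ⟨⟨hu, by rw [hg u hu.ne']; exact hne.symm⟩, fun h => h.1 rfl⟩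
        · exact ⟨⟨hu.symm, by rw [hg u hu.ne']; exact hne⟩, fun h => h.2 rfl⟩
    rw [← h1, h2, h3, card_union_of_disjoint, card_image_of_injective _ fun a b e => by simpa using e,
      card_image_of_injective _ fun a b e => by simpa using e]
    · ring
    · rw [disjoint_left]
      rintro p hp hq
      obtain ⟨a, ha, rfl⟩ := mem_image.1 hp
      obtain ⟨b, hb, e⟩ := mem_image.1 hq
      simp only [Prod.mk.injEq] at e
      exact (mem_filter.1 ha).2.1.ne e.2
  have e1 := key (Function.update f v c) fun u hu => Function.update_of_ne hu _ _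
  have e2 := key f fun _ _ => rfl
  simp only [Function.update_self] at e1
  have part : ∀ x : Fin t, (univ.filter fun u => A.Adj v u ∧ f u ≠ x).card + (nbrIn A f v x).card =
      (univ.filter fun u => A.Adj v u).card := fun x => by
    rw [← card_filter_add_card_filter_not
      (s := univ.filter fun u => A.Adj v u) (fun u => f u ≠ x), filter_filter, filter_filter]
    simp [nbrIn]
  have := part c
  have := part (f v)
  omega

/-- A class part with few neighbours inside sees much outside it. -/
theorem le_crossPairs {t : ℕ} (f : V → Fin t) (c : Fin t) (d s : ℕ)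
    (hd : ∀ v, d ≤ (univ.filter fun u => A.Adj v u).card) (hs : (cls f c).card ≤ s + 1) :
    (cls f c).card * (d - s) ≤ (crossPairs A f).card := by
  have h : pairs A (cls f c) (cls f c)ᶜ ⊆ crossPairs A f := by
    rintro ⟨a, b⟩ hp
    simp [pairs, cls] at hp
    simp [crossPairs, hp.2, hp.1.1]
    exact fun e => hp.1.2 e.symm
  refine le_trans ?_ (card_le_card h)
  rw [card_pairs_eq, ← smul_eq_mul]
  refine card_nsmul_le_sum _ _ _ fun a ha => ?_
  have hsub : univ.filter (fun u => A.Adj a u) ⊆
      ((cls f c)ᶜ.filter fun u => A.Adj a u) ∪ (cls f c).erase a := by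
    intro u hu
    have hu' := (mem_filter.1 hu).2
    by_cases h' : u ∈ cls f c
    · exact mem_union_right _ (mem_erase.2 ⟨hu'.ne', h'⟩)
    · exact mem_union_left _ (mem_filter.2 ⟨mem_compl.2 h', hu'⟩)
  have := (hd a).trans ((card_le_card hsub).trans (card_union_le _ _))
  rw [card_erase_of_mem ha] at this
  omega

/-- A colouring without small classes and with few crossing pairs. -/
def Stage (A : SimpleGraph V) (m d t : ℕ) (f : V → Fin t) : Prop :=
  (∀ c, d ≤ 4 * (2 * m + 1) * (cls f c).card) ∧
    40 * (2 * m + 1) ^ 2 * m ^ 2 * (crossPairs A f).card ≤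
      2 * (t - 1) * Fintype.card V ^ 2

/-- The wanted partition. -/
structure Part (A : SimpleGraph V) (m d : ℕ) where
  t : ℕ
  f : V → Fin t
  inner : ∀ v, d ≤ 2 * m * (nbrIn A f v (f v)).card
  robust : ∀ (c : Fin t) (X : Finset V), X ⊆ cls f c →
    Fintype.card V * min X.card (cls f c \ X).card ≤
      40 * (2 * m + 1) ^ 2 * m ^ 2 * (pairs A X (cls f c \ X)).card

theorem step {m d t : ℕ} (hd0 : 1 ≤ d) (hV : 0 < Fintype.card V) (hn : Fintype.card V ≤ m * d)
    (hd : ∀ v, d ≤ (univ.filter fun u => A.Adj v u).card) (ht : t ≤ 2 * m)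
    (h : ∃ f : V → Fin t, Stage A m d t f) :
    Nonempty (Part A m d) ∨ ∃ g : V → Fin (t + 1), Stage A m d (t + 1) g := by
  obtain ⟨f, hf, hmin⟩ := exists_min_image (univ.filter fun f : V → Fin t => Stage A m d t f)
    (fun f => (crossPairs A f).card) (h.imp fun f hf => mem_filter.2 ⟨mem_univ _, hf⟩)
  have hf := (mem_filter.1 hf).2
  set T := 2 * m + 1 with hT
  set n := Fintype.card V with hn'
  set K := 40 * T ^ 2 * m ^ 2 with hK
  have hm : 0 < m := by
    rcases Nat.eq_zero_or_pos m with rfl | h0
    · simp at hn; omega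
    · exact h0
  have hcross : K * (crossPairs A f).card ≤ 4 * m ^ 3 * d ^ 2 := by
    refine hf.2.trans ?_
    calc 2 * (t - 1) * n ^ 2 ≤ 4 * m * (m * d) ^ 2 :=
          Nat.mul_le_mul (by omega) (Nat.pow_le_pow_left hn 2)
      _ = _ := by ring
  have inner : ∀ v, d ≤ t * (nbrIn A f v (f v)).card := by
    intro v
    refine (hd v).trans ?_
    rw [nbr_sum f v]
    refine (sum_le_card_nsmul _ _ (nbrIn A f v (f v)).card fun c _ => ?_).trans (by simp)
    by_cases hc : c = f v
    · rw [hc]
    by_contra hlt
    push Not at hlt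
    have hmove := move_card (A := A) f v c hc
    by_cases hbig : d ≤ 4 * T * ((cls f (f v)).card - 1)
    · have hg : Stage A m d t (Function.update f v c) := by
        refine ⟨fun x => ?_, le_trans (Nat.mul_le_mul_left _ (by omega)) hf.2⟩
        by_cases hx : x = f v
        · subst hx
          refine hbig.trans (Nat.mul_le_mul_left _ ?_)
          rw [← card_erase_of_mem (show v ∈ cls f (f v) by simp [cls])]
          refine card_le_card fun u hu => ?_
          obtain ⟨h1, h2⟩ := mem_erase.1 hu
          simpa [cls, Function.update_of_ne h1] using h2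
        · refine (hf.1 x).trans (Nat.mul_le_mul_left _ (card_le_card fun u hu => ?_))
          have hu' : f u = x := by simpa [cls] using hu
          have : u ≠ v := fun e => hx (by rw [← hu', e])
          simpa [cls, Function.update_of_ne this] using hu'
      have := hmin _ (mem_filter.2 ⟨mem_univ _, hg⟩)
      omega
    · push Not at hbig
      set s := (cls f (f v)).card - 1 with hs
      have h4 : 4 * s ≤ d := by
        have : 4 * 1 * s ≤ 4 * T * s := Nat.mul_le_mul_right _ (by omega)
        omega
      have hc1 := le_crossPairs (A := A) f (f v) d s hd (by omega)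
      have hc2 := hf.1 (f v)
      have e1 : 3 * d ^ 2 ≤ 16 * T * (crossPairs A f).card := by
        calc 3 * d ^ 2 = d * (3 * d) := by ring
          _ ≤ 4 * T * (cls f (f v)).card * (4 * (d - s)) := Nat.mul_le_mul hc2 (by omega)
          _ = 16 * T * ((cls f (f v)).card * (d - s)) := by ring
          _ ≤ _ := Nat.mul_le_mul_left _ hc1
      have e2 : 30 * T * (T * m ^ 2 * d ^ 2) ≤ 16 * m * (T * m ^ 2 * d ^ 2) := by
        nlinarith [Nat.mul_le_mul_left (10 * T ^ 2 * m ^ 2) e1, Nat.mul_le_mul_left (4 * T) hcross]
      have pos : 0 < T * m ^ 2 * d ^ 2 := by positivity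
      have := Nat.le_of_mul_le_mul_right e2 pos
      omega
  by_cases hrob : ∀ (c : Fin t) (X : Finset V), X ⊆ cls f c →
      n * min X.card (cls f c \ X).card ≤ K * (pairs A X (cls f c \ X)).card
  · exact Or.inl ⟨⟨t, f, fun v => (inner v).trans (Nat.mul_le_mul_right _ ht), hrob⟩⟩
  right
  push Not at hrob
  obtain ⟨c, X₀, hX₀, hbad⟩ := hrob
  obtain ⟨X, hX, hle, hbad⟩ : ∃ X, X ⊆ cls f c ∧ X.card ≤ (cls f c \ X).card ∧
      K * (pairs A X (cls f c \ X)).card < n * X.card := by
    rcases le_total X₀.card (cls f c \ X₀).card with h1 | h1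
    · exact ⟨X₀, hX₀, h1, by rwa [min_eq_left h1] at hbad⟩
    · refine ⟨cls f c \ X₀, sdiff_subset, ?_, ?_⟩
      · rwa [sdiff_sdiff_right_self, inf_eq_inter, inter_eq_right.2 hX₀]
      · rw [sdiff_sdiff_right_self, inf_eq_inter, inter_eq_right.2 hX₀, card_pairs_comm]
        rwa [min_eq_right h1] at hbad
  have hXbig : d ≤ 4 * T * X.card := by
    by_contra hsmall
    push Not at hsmall
    have hXp : 0 < X.card := by
      rcases Nat.eq_zero_or_pos X.card with h0 | h0
      · simp [h0] at hbad
      · exact h0
    have h2 : 2 * t * X.card ≤ d := by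
      have : 2 * t * X.card ≤ 4 * T * X.card := Nat.mul_le_mul_right _ (by omega)
      omega
    have e : X.card * d ≤ 2 * t * (pairs A X (cls f c \ X)).card := by
      rw [card_pairs_eq, mul_sum, ← smul_eq_mul]
      refine card_nsmul_le_sum _ _ _ fun x hx => ?_
      have hsub : nbrIn A f x (f x) ⊆ ((cls f c \ X).filter fun y => A.Adj x y) ∪ X := by
        intro u hu
        obtain ⟨hu1, hu2⟩ := (mem_filter.1 hu).2
        by_cases h' : u ∈ X
        · exact mem_union_right _ h'
        · refine mem_union_left _ (mem_filter.2 ⟨mem_sdiff.2 ⟨?_, h'⟩, hu1⟩)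
          have : f x = c := by simpa [cls] using hX hx
          simp [cls, hu2, this]
      have h3 := Nat.mul_le_mul_left (2 * t) ((card_le_card hsub).trans (card_union_le _ _))
      have h4 := inner x
      rw [mul_add, mul_assoc 2 t (nbrIn A f x (f x)).card] at h3
      omega
    have e3 : n * X.card * (2 * t) ≤ K * (pairs A X (cls f c \ X)).card * (2 * t) := by
      calc n * X.card * (2 * t) ≤ m * d * X.card * (2 * t) := by gcongr
        _ = 2 * t * m * (X.card * d) := by ring
        _ ≤ K * (2 * t * (pairs A X (cls f c \ X)).card) := by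
          refine Nat.mul_le_mul ?_ e
          calc 2 * t * m ≤ 40 * T ^ 2 * m := by
                refine Nat.mul_le_mul_right _ ?_
                nlinarith
            _ ≤ 40 * T ^ 2 * m ^ 2 := Nat.mul_le_mul_left _ (Nat.le_self_pow two_ne_zero m)
        _ = _ := by ring
    have ht0 : 0 < 2 * t := by
      have := c.2
      omega
    exact absurd (Nat.le_of_mul_le_mul_right e3 ht0) (by omega)
  refine ⟨fun v => if v ∈ X then Fin.last t else (f v).castSucc, fun x => ?_, ?_⟩
  · induction x using Fin.lastCases with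
    | last =>
      refine hXbig.trans (Nat.mul_le_mul_left _ (card_le_card fun u hu => ?_))
      simp [cls, hu]
    | cast x =>
      by_cases hx : x = c
      · subst hx
        refine hXbig.trans (Nat.mul_le_mul_left _ (hle.trans (card_le_card fun u hu => ?_)))
        simp [cls] at hu ⊢
        simp [hu]
      · refine (hf.1 x).trans (Nat.mul_le_mul_left _ (card_le_card fun u hu => ?_))
        have hu' : f u = x := by simpa [cls] using hu
        have : u ∉ X := fun h' => hx (by rw [← hu']; simpa [cls] using hX h')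
        simp [cls, this, hu']
  · set g := fun v => if v ∈ X then Fin.last t else (f v).castSucc with hg
    have hsub : crossPairs A g ⊆
        crossPairs A f ∪ (pairs A X (cls f c \ X) ∪ pairs A (cls f c \ X) X) := by
      rintro ⟨a, b⟩ hp
      simp only [crossPairs, mem_filter, mem_univ, true_and, hg] at hp
      simp only [mem_union, crossPairs, pairs, mem_filter, mem_univ, true_and, mem_product,
        mem_sdiff]
      by_cases he : f a = f b
      · by_cases ha : a ∈ X <;> by_cases hb : b ∈ X
        · simp [ha, hb] at hp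
        · exact Or.inr (Or.inl ⟨⟨ha, by simpa [cls] using he.symm.trans (by simpa [cls] using hX ha),
            hb⟩, hp.1⟩)
        · exact Or.inr (Or.inr ⟨⟨⟨by simpa [cls] using he.trans (by simpa [cls] using hX hb), ha⟩,
            hb⟩, hp.1⟩)
        · simp [ha, hb, he] at hp
      · exact Or.inl ⟨hp.1, he⟩
    have h1 := (card_le_card hsub).trans ((card_union_le _ _).trans
      (Nat.add_le_add_left (card_union_le _ _) _))
    rw [card_pairs_comm (cls f c \ X) X] at h1
    have h2 := Nat.mul_le_mul_left K h1
    have h3 : n * X.card ≤ n * n := Nat.mul_le_mul_left _ (card_le_univ _)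
    have h4 : 0 < t := by
      have := c.2
      omega
    have h5 := hf.2
    show K * _ ≤ 2 * (t + 1 - 1) * n ^ 2
    rw [show t + 1 - 1 = (t - 1) + 1 by omega]
    rw [← hK, ← hn'] at h5
    ring_nf at h2 h3 h5 hbad ⊢
    omega

/-- Every dense graph has such a partition. -/
theorem exists_part {m d : ℕ} (hd0 : 1 ≤ d) (hV : 0 < Fintype.card V)
    (hn : Fintype.card V ≤ m * d) (hd : ∀ v, d ≤ (univ.filter fun u => A.Adj v u).card) :
    Nonempty (Part A m d) := by
  by_contra hno
  have hdn : d ≤ Fintype.card V := by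
    obtain ⟨v⟩ := Fintype.card_pos_iff.1 hV
    exact (hd v).trans (card_le_univ _)
  have all : ∀ t, t ≤ 2 * m → ∃ f : V → Fin (t + 1), Stage A m d (t + 1) f := by
    intro t
    induction t with
    | zero =>
      refine fun _ => ⟨fun _ => 0, fun c => ?_, ?_⟩
      · have : cls (fun _ : V => (0 : Fin 1)) c = univ := by ext; simp [cls, Fin.fin_one_eq_zero c]
        rw [this, card_univ]
        calc d ≤ 1 * Fintype.card V := by omega
          _ ≤ _ := Nat.mul_le_mul_right _ (by omega)
      · simp [crossPairs]
    | succ t ih =>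
      intro ht
      rcases step hd0 hV hn hd (show t + 1 ≤ 2 * m by omega) (ih (by omega)) with h | h
      · exact absurd h hno
      · exact h
  obtain ⟨f, hf⟩ := all (2 * m) le_rfl
  obtain ⟨hfb, hfc⟩ := hf
  obtain ⟨c, -, hc⟩ := exists_min_image (univ : Finset (Fin (2 * m + 1)))
    (fun c => (cls f c).card) univ_nonempty
  have hsum : (2 * m + 1) * (cls f c).card ≤ Fintype.card V := by
    have h1 := card_eq_sum_card_fiberwise (f := f) (s := (univ : Finset V)) (t := univ)
      fun x _ => mem_univ (f x)
    have h2 : ∀ x, univ.filter (fun v => f v = x) = cls f x := fun x => rfl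
    simp only [h2] at h1
    rw [← card_univ (α := V), h1]
    simpa using card_nsmul_le_sum univ _ _ hc
  set s := (cls f c).card with hs
  obtain ⟨T, hT⟩ : ∃ T, T = 2 * m + 1 := ⟨_, rfl⟩
  rw [← hT] at hsum
  set n := Fintype.card V with hn'
  set P := (crossPairs A f).card with hP
  have h2s : 2 * s ≤ d := by
    by_contra hlt
    push Not at hlt
    have h1 : m * d < m * (2 * s) + 1 := by nlinarith
    have h2 : T * s = m * (2 * s) + s := by rw [hT]; ring
    have : 0 < s := by omega
    omega
  have hc1 : s * (d - s) ≤ P := le_crossPairs (A := A) f c d s hd (by omega)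
  have e1 : d ^ 2 ≤ 8 * T * P := by
    calc d ^ 2 = d * d := by ring
      _ ≤ 4 * T * s * (2 * (d - s)) := Nat.mul_le_mul (hT ▸ hfb c) (by omega)
      _ = 8 * T * (s * (d - s)) := by ring
      _ ≤ _ := Nat.mul_le_mul_left _ hc1
  have e2 : 40 * T ^ 2 * m ^ 2 * P ≤ 4 * m * (m * d) ^ 2 :=
    (hT ▸ hfc).trans (Nat.mul_le_mul (by omega) (Nat.pow_le_pow_left hn 2))
  have hm : 0 < m := by
    rcases Nat.eq_zero_or_pos m with rfl | h0
    · simp at hn; omega
    · exact h0
  have e3 : 5 * T * (T * m ^ 2 * d ^ 2) ≤ 4 * m * (T * m ^ 2 * d ^ 2) := by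
    nlinarith [Nat.mul_le_mul_left (5 * T ^ 2 * m ^ 2) e1, Nat.mul_le_mul_left T e2]
  have hTpos : 0 < T := by omega
  have := Nat.le_of_mul_le_mul_right e3 (by positivity)
  omega

end Vale.Agent.P061.Dense
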